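import Vale.Agent.P354DA.Str
import Vale.Agent.P354YJ.Chain

/-!
The data induced on a slice close to a Kerr slice, in the ingoing chart.
-/

set_option maxSynthPendingDepth 3

open scoped ContDiff
open Set Filter Topology Metric

noncomputable section

namespace Vale.Agent.P354DA

open Vale.Agent.P354n (R4)
open Vale.Agent.P354 (Bilin)
open Vale.Agent.P354I (X Dat P3 pd ee)
open Vale.Agent.P354RC (B2 Rp)
open Vale.Agent.P354XD (tb rp_tb)
open Vale.Agent.P354XE (Tw pt xs rd pb eT gin Bd kf)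
open Vale.Agent.P354XU (IndAt Jt)
open Vale.Agent.P354XA
open Vale.Agent.P354YI (Oj Os Jb at_fd at_comp tb_sub)
open Vale.Agent.P354YO (tb_pb Sb sb_gin oj_of_bd tb_ap bil_pb)
open Vale.Agent.P354YR (XI XI_gin s_Sg s_rd s_gin xs_ne)
open Vale.Agent.P354YJ (n0 js_cd js_bh hs0 open_rd gin_n0 Sg_pos)
open Vale.Agent.P354YM

/-- A fixed smooth function of a parameter and a point. -/
theorem oj_par {I P E V : Type} [NormedAddCommGroup P] [NormedSpace ℝ P] [NormedAddCommGroup E]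
    [NormedSpace ℝ E] [NormedAddCommGroup V] [NormedSpace ℝ V] {m : ℕ} {F : P × E → V}
    {Q : Set (P × E)} (hQ : IsCompact Q) (hF : ∀ q ∈ Q, ContDiffAt ℝ ∞ F q) {p : I → P}
    {x : I → E} (h : ∀ i, (p i, x i) ∈ Q) : Oj m x (fun i w => F (p i, w)) 1 :=
  Oj.comp (f := fun i w => (p i, w)) (fun _ => contDiffAt_const.prodMk contDiffAt_id) m
    ((Oj.cst (.inr ℝ P E)).congr' fun _ _ => (hasFDerivAt_prodMk_right _ _).fderiv) (.fix hQ hF h)

theorem pos_of_ind {B : R4 → R4 → ℝ} (hB : Bilin B) {J : X → R4} {y : X}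
    {H : Matrix (Fin 3) (Fin 3) ℝ} (hH : H.PosDef) (e : ∀ i k, B (pd i J y) (pd k J y) = H i k)
    {u : X} (u0 : u ≠ 0) : 0 < B (fderiv ℝ J y u) (fderiv ℝ J y u) := by
  refine (hH.dotProduct_mulVec_pos (x := u.ofLp) (by simpa using u0)).trans_eq ?_
  have : u = u 0 • ee 0 + u 1 • ee 1 + u 2 • ee 2 := by ext i; fin_cases i <;> simp [ee]
  conv_rhs => rw [this]
  simp only [map_add, map_smul, hB.add_left, hB.add_right, hB.smul_left, hB.smul_right, ← e, pd,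
    star_trivial, Matrix.mulVec, dotProduct, Fin.sum_univ_three]
  ring

/-- The transverse field and the chart for the Kerr slices. -/
def Vm (j : Jd) (σ : Bool) (p : P3) (z : X) : R4 := XI p.1 p.2.1 (j.Js σ p z)
def S0 (j : Jd) (σ : Bool) (p : P3) : R4 → R4 := st (j.Js σ p) (Vm j σ p)

variable {j : Jd} (h : j.Is) {σ : Bool} {p : P3} {y : X}
include h

theorem js_pos (hp : p ∈ ball j.p0 j.ε0) (hy : y ≠ 0) : 0 < rd (j.Js σ p y) :=
  (hor (h.hG.par p hp).2.1).2.1.trans_lt (js_bh h hp hy σ).1.1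

theorem vm_cd (hp : p ∈ ball j.p0 j.ε0) (hy : y ≠ 0) :
    ContDiffAt ℝ ∞ (fun z : P3 × X => Vm j σ z.1 z.2) (p, y) :=
  have a := js_cd h hp hy σ
  have b := xs_ne (js_pos h (σ := σ) hp hy)
  ((s_Sg a b contDiffAt_fst.snd.fst (s_rd a b)).add ((contDiffAt_const.mul contDiffAt_fst.fst).mul
    (s_rd a b))).prodMk ((contDiffAt_const.mul contDiffAt_fst.fst).neg.smul a.snd)

theorem vm_pos (hp : p ∈ ball j.p0 j.ε0) (hy : y ≠ 0) : 0 < (Vm j σ p y).1 := by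
  have a := js_pos h (σ := σ) hp hy
  exact add_pos (Sg_pos _ a) (mul_pos (mul_pos two_pos (hor (h.hG.par p hp).2.1).1) a)

theorem jv_ev (hp : p ∈ ball j.p0 j.ε0) (hy : y ≠ 0) :
    ∀ᶠ z in 𝓝 y, ContDiffAt ℝ ∞ (j.Js σ p) z ∧ ContDiffAt ℝ ∞ (Vm j σ p) z :=
  (isOpen_compl_singleton.eventually_mem hy).mono fun z hz =>
    ⟨(js_cd h hp hz σ).comp z (f := fun z => (p, z)) (contDiffAt_const.prodMk contDiffAt_id),
      (vm_cd h hp hz).comp z (f := fun z => (p, z)) (contDiffAt_const.prodMk contDiffAt_id)⟩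

theorem s0_cd (hp : p ∈ ball j.p0 j.ε0) {w : R4} (hw : xL w ≠ 0) :
    ContDiffAt ℝ ∞ (fun z : P3 × R4 => S0 j σ z.1 z.2) (p, w) :=
  have c : ContDiffAt ℝ ∞ (fun z : P3 × R4 => (z.1, xL z.2)) (p, w) :=
    contDiffAt_fst.prodMk (xL.contDiff.contDiffAt.comp _ contDiffAt_snd)
  ((js_cd h hp hw σ).comp (p, w) c).add (contDiffAt_snd.fst.smul ((vm_cd h hp hw).comp (p, w) c))

theorem sx0 (hp : p ∈ ball j.p0 j.ε0) (hy : y ≠ 0) :
    Sx (gin p.1 p.2.1) {w | 0 < rd w} n0 (S0 j σ p) (j.Js σ p) y := by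
  have m := js_pos h (σ := σ) hp hy
  have c := (jv_ev h (σ := σ) hp hy).self_of_nhds
  have e : ∀ u, fderiv ℝ (S0 j σ p) (pL y) u = _ := st_fd c.1 c.2
  have e1 : fderiv ℝ (S0 j σ p) (pL y) eT = Vm j σ p y := by
    rw [e, xL_eT, map_zero, zero_add]; exact one_smul _ _
  have a : ∀ u v, tb (pb (S0 j σ p) (gin p.1 p.2.1)) (pL y) u v = gin p.1 p.2.1 (j.Js σ p y)
      (fderiv ℝ (S0 j σ p) (pL y) u) (fderiv ℝ (S0 j σ p) (pL y) v) := fun u v => by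
    rw [tb_ap (bil_pb (gin_bil _ _ _)), pb, S0, st_pL]
  obtain ⟨_, _, -, -, -, I⟩ := h.hH.ind p hp σ j.T (hs0 h) y hy
  refine ⟨st_sm (jv_ev h hp hy), .of_forall fun z => (st_pL z).symm, m,
    ⟨fun u v => ?_, fun v v0 hv => ?_, ?_⟩, ?_, ?_⟩
  · rw [a, a, gin_symm]
  · rw [a, e, hv, zero_smul, add_zero]
    exact pos_of_ind (gin_bil _ _ _) ((h.hK.sta p hp _ h.hT).1.1.2 y hy).1 (fun i k => (I i k).2.1)
      fun z => v0 (by rw [← pL_xL hv, z, map_zero])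
  · rw [a, e1, Vm, XI_gin (xs_ne m)]
    exact neg_lt_zero.2 (mul_pos (Sg_pos _ m) (vm_pos h hp hy))
  · refine (gin_n0 m.ne' _).trans_le (le_of_eq ?_)
    have := rd_sq (j.Js σ p y)
    simp only [kf, n0, dr_eq, dq_eq, ip, Prod.smul_fst, Prod.smul_snd, smul_eq_mul] at this ⊢
    field_simp
    linear_combination -rd (j.Js σ p y) * this
  · rw [e1, gin_symm, Vm, XI_gin (xs_ne m)]
    exact neg_lt_zero.2 (mul_pos (Sg_pos _ m) one_pos)

theorem dat0 (hp : p ∈ ball j.p0 j.ε0) (hy : y ≠ 0) :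
    (j.kd p).h y = (dat (pb (S0 j σ p) (gin p.1 p.2.1))).h y ∧
      (j.kd p).K y = (dat (pb (S0 j σ p) (gin p.1 p.2.1))).K y :=
  (sx0 h hp hy).uniq (rp_tb open_rd (P354YJ.gin_met _ _)) (h.hH.ind p hp σ j.T (hs0 h) y hy)

omit h in
theorem gin_c2 {q : P3 × R4} (hq : 0 < rd q.2) :
    ContDiffAt ℝ ∞ (fun z : P3 × R4 => tb (gin z.1.1 z.1.2.1) z.2) q :=
  ContDiffAt.sum fun _ _ => ContDiffAt.sum fun _ _ => (s_gin contDiffAt_snd (xs_ne hq)
    contDiffAt_fst.fst contDiffAt_fst.snd.fst _ _).smul contDiffAt_const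

/-- The hypotheses of the local estimate. -/
structure Hy (j : Jd) (σ : Bool) (p : P3) (y : X) (μ : ℝ) (b : X → R4) (G : Tw) : Prop where
  cd : ContDiffAt ℝ ∞ b y
  sb : Sb G (b y)
  sy : ∀ v w, G (b y) v w = G (b y) w v
  jb : Jb 13 (fun z => b z - j.Js σ p z) y μ
  bd : Bd 12 (G - gin p.1 p.2.1) (b y) μ

/-- The local estimate. -/
theorem loc (σ : Bool) {Pk : Set P3} (hP : IsCompact Pk) (sP : Pk ⊆ ball j.p0 j.ε0) {K : Set X}
    (hK : IsCompact K) (sK : ∀ y ∈ K, y ≠ 0) : ∃ C ≥ 0, ∃ μ0 > 0, ∀ p ∈ Pk, ∀ y ∈ K, ∀ μ ≤ μ0,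
      ∀ b G, Hy j σ p y μ b G → Ok (tb (pb (st b (Vm j σ p)) G) (pL y)) ∧ ∀ i k,
        Jb 11 (fun z => (dat (pb (st b (Vm j σ p)) G)).h z i k - (j.kd p).h z i k) y (C * μ) ∧
        Jb 11 (fun z => (dat (pb (st b (Vm j σ p)) G)).K z i k - (j.kd p).K z i k) y (C * μ) := by
  have c0 : IsCompact ((fun z : P3 × X => j.Js σ z.1 z.2) '' (Pk ×ˢ K)) :=
    (hP.prod hK).image_of_continuousOn fun z hz =>
      (js_cd h (sP hz.1) (sK _ hz.2) σ).continuousAt.continuousWithinAt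
  obtain ⟨ρ, ρ0, hρ⟩ := c0.exists_cthickening_subset_open open_rd
    (image_subset_iff.2 fun z hz => js_pos h (sP hz.1) (sK _ hz.2))
  let I := {z : (P3 × X × ℝ) × (X → R4) × Tw // (z.1.1 ∈ Pk ∧ z.1.2.1 ∈ K) ∧
    z.1.2.2 ≤ min ρ 1 ∧ Hy j σ z.1.1 z.1.2.1 z.1.2.2 z.2.1 z.2.2}
  let x : I → R4 := fun i => pL i.1.1.2.1
  let μ : I → ℝ := fun i => i.1.1.2.2
  let Ψ : I → R4 → R4 := fun i => st i.1.2.1 (Vm j σ i.1.1.1)
  let Φ : I → R4 → R4 := fun i => S0 j σ i.1.1.1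
  let k : I → Tw := fun i => gin i.1.1.1.1 i.1.1.1.2.1
  let S : I → Set R4 := fun i => closedBall (j.Js σ i.1.1.1 i.1.1.2.1) ρ
  have v1 : ∀ i, Ψ i (x i) = i.1.2.1 i.1.1.2.1 := fun i => st_pL _
  have v2 : ∀ i, Φ i (x i) = j.Js σ i.1.1.1 i.1.1.2.1 := fun i => st_pL _
  have c1 := fun i : I => (jv_ev h (σ := σ) (sP i.2.1.1) (sK _ i.2.1.2)).self_of_nhds
  have o0 : Oj 13 (fun i => xL (x i)) (fun i z => i.1.2.1 z - j.Js σ i.1.1.1 z) μ := by
    simp only [x, xL_pL]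
    exact .of (fun i => i.2.2.2.cd.sub (c1 i).1) fun i => i.2.2.2.jb
  have o1 : Oj 13 x (fun i w => Ψ i w - Φ i w) μ :=
    (Oj.comp (f := fun _ => xL) (fun _ => xL.contDiff.contDiffAt) 13
      ((Oj.cst xL).congr' fun _ _ => xL.fderiv) o0).congr'
      fun _ _ => add_sub_add_right_eq_sub _ _ _
  have o2 : Oj 13 x Φ 1 := oj_par (F := fun z : P3 × R4 => S0 j σ z.1 z.2)
    (hP.prod (hK.image pL.continuous)) (by
      rintro ⟨p, _⟩ ⟨a, y, b, rfl⟩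
      exact s0_cd h (sP a) (by rw [xL_pL]; exact sK _ b)) fun i => ⟨i.2.1.1, _, i.2.1.2, rfl⟩
  have o3 : Oj 13 x Ψ 1 := ((o1.mono le_rfl fun i => i.2.2.1.trans (min_le_right _ _)).add
    o2).congr' fun _ _ => (sub_add_cancel _ _).symm
  have m1 : ∀ i, Ψ i (x i) ∈ S i := fun i => by
    rw [v1, mem_closedBall_iff_norm]
    exact i.2.2.2.jb.zero.trans (i.2.2.1.trans (min_le_left _ _))
  have m2 : ∀ i, Φ i (x i) ∈ S i := fun i => v2 i ▸ mem_closedBall_self ρ0.le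
  have m3 : ∀ i, S i ⊆ cthickening ρ ((fun z : P3 × X => j.Js σ z.1 z.2) '' (Pk ×ˢ K)) :=
    fun i => closedBall_subset_cthickening (mem_image_of_mem (fun z : P3 × X => j.Js σ z.1 z.2)
      (mk_mem_prod i.2.1.1 i.2.1.2)) ρ
  have o4 : Os 13 S (fun i => tb (k i)) 1 :=
    oj_par (F := fun z : P3 × R4 => tb (gin z.1.1 z.1.2.1) z.2) (hP.prod (c0.cthickening (r := ρ)))
      (fun q hq => gin_c2 (hρ hq.2)) fun i => ⟨i.1.1.2.1.1, m3 _ i.2⟩
  have o5 := Oj.pb_lip o3.sm o2.sm (fun i => (convex_closedBall _ _).segment_subset (m1 i) (m2 i))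
    o3.fd o2.fd o1 o4
  have sb : ∀ i : I, Sb i.1.2.2 (Ψ i (x i)) := fun i => v1 i ▸ i.2.2.2.sb
  have o6 := Oj.pb o3.sm o3.fd (oj_of_bd (h := fun i => i.1.2.2 - k i)
    (fun i => (sb i).sub (sb_gin (hρ (m3 i (m1 i))))) fun i => v1 i ▸ i.2.2.2.bd)
  have o7 : Oj 12 x (fun i w => tb (pb (Ψ i) i.1.2.2) w - tb (pb (Φ i) (k i)) w) μ :=
    (o6.add o5).congr fun i => by
      filter_upwards [(o3.sm i).continuousAt.eventually (sb i).bl] with w a
      rw [tb_pb a, tb_pb (gin_bil _ _ _)]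
      refine ContinuousLinearMap.ext fun u => ContinuousLinearMap.ext fun v => ?_
      simp [P354RC.pb_ap, tb_sub, k]
  have o8 : Oj 12 x (fun i => tb (pb (Φ i) (k i))) 1 :=
    (Oj.pb o2.sm o2.fd (o4.at id m2).pred).congr' fun _ _ => tb_pb (gin_bil _ _ _)
  have o9 : Oj 12 x (fun i => tb (pb (Ψ i) i.1.2.2)) 1 :=
    ((o7.mono le_rfl fun i => i.2.2.1.trans (min_le_right _ _)).add o8).congr'
      fun _ _ => (sub_add_cancel _ _).symm
  obtain ⟨B, C, δ, d0, hδ⟩ := ok_cpt (K := (fun z : P3 × X =>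
      tb (pb (S0 j σ z.1) (gin z.1.1 z.1.2.1)) (pL z.2)) '' (Pk ×ˢ K))
    ((hP.prod hK).image_of_continuousOn fun z hz => by
      have c : ContDiffAt ℝ ∞ (fun z : P3 × X => (z.1, pL z.2)) z :=
        contDiffAt_fst.prodMk (pL.contDiff.contDiffAt.comp _ contDiffAt_snd)
      have a := s0_cd h (σ := σ) (sP hz.1) (w := pL z.2) (by rw [xL_pL]; exact sK _ hz.2)
      have a1 : ContDiffAt ℝ ∞ (fun z : P3 × X => fderiv ℝ (S0 j σ z.1) (pL z.2)) z :=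
        ContDiffAt.fderiv (n := ∞) (a.comp (z, pL z.2) (f := fun w : (P3 × X) × R4 => (w.1.1, w.2))
          (by fun_prop)) c.snd (by simp)
      have a2 := (gin_c2 (q := (z.1, S0 j σ z.1 (pL z.2))) (by
        rw [S0, st_pL]; exact js_pos h (sP hz.1) (sK _ hz.2))).comp z
        (contDiffAt_fst.prodMk (a.comp z c))
      refine (continuousAt_clm_apply.2 fun u => continuousAt_clm_apply.2 fun v =>
        ?_).continuousWithinAt
      simp only [tb_pb (gin_bil _ _ _)]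
      exact ((a2.clm_apply (a1.clm_apply contDiffAt_const)).clm_apply
        (a1.clm_apply contDiffAt_const)).continuousAt)
    (forall_mem_image.2 fun z hz => (sx0 h (sP hz.1) (sK _ hz.2)).ok)
  obtain ⟨C1, c1, h1⟩ := o7.val
  let I' := {i : I // μ i ≤ δ / (C1 + 1)}
  have k1 : ∀ i : I', tb (pb (Ψ i) i.1.1.2.2) (x i) ∈ Kc B C ∧
      tb (pb (Ψ i) i.1.1.2.2) (x i) eT eT < 0 := fun i =>
    hδ _ ⟨(_, _), i.1.2.1, rfl⟩ _ (fun u v => by
      rw [tb_ap (bil_pb (sb i).bl.self_of_nhds), tb_ap (bil_pb (sb i).bl.self_of_nhds), pb, pb, v1,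
        i.1.2.2.2.sy]) ((h1 i).trans (by
      have := (le_div_iff₀ (by positivity)).1 i.2
      linarith [o7.nn i]))
  have k2 : ∀ i : I', tb (pb (Φ i) (k i)) (x i) ∈ Kc B C := fun i =>
    (hδ _ ⟨(_, _), i.1.2.1, rfl⟩ _ (sx0 h (sP i.1.2.1.1) (sK _ i.1.2.1.2)).ok.symm
      (by simpa using d0.le)).1
  have o := oj_dat_sub (y := fun i : I' => i.1.1.1.2.1) (o9.ix Subtype.val) (o8.ix Subtype.val)
    (fun i => (k1 i).1) k2 (o7.ix Subtype.val)
  choose C2 c2 h2 using fun a b => (o a b).1.bd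
  choose C3 c3 h3 using fun a b => (o a b).2.bd
  obtain ⟨E, hE⟩ := (finite_range fun z : Fin 3 × Fin 3 => max (C2 z.1 z.2) (C3 z.1 z.2)).bddAbove
  refine ⟨E, (c2 0 0).trans (max_le_iff.1 (hE ⟨(0, 0), rfl⟩)).1, min (min ρ 1) (δ / (C1 + 1)),
    by positivity, fun p hp y hy μ hμ b G H => ?_⟩
  let i : I' := ⟨⟨((p, y, μ), b, G), ⟨hp, hy⟩, hμ.trans (min_le_left _ _), H⟩,
    hμ.trans (min_le_right _ _)⟩
  have ev := (isOpen_compl_singleton.eventually_mem (sK y hy)).mono fun z hz =>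
    dat0 h (σ := σ) (sP hp) hz
  have e := fun a b => max_le_iff.1 (hE ⟨(a, b), rfl⟩)
  exact ⟨kc_ok (k1 i).1 (k1 i).2, fun a b =>
    ⟨((h2 a b i).congr (ev.mono fun z hz => by simp only [hz.1]; rfl)).mono le_rfl
      (mul_le_mul_of_nonneg_right (e a b).1 H.jb.nonneg),
    ((h3 a b i).congr (ev.mono fun z hz => by simp only [hz.2]; rfl)).mono le_rfl
      (mul_le_mul_of_nonneg_right (e a b).2 H.jb.nonneg)⟩⟩

end Vale.Agent.P354DA
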