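import Vale.Agent.P354DA.Tools
import Vale.Agent.P354M2.Mix

/-!
DAT: the data induced on admissible slices.
-/

set_option maxSynthPendingDepth 3

open scoped ContDiff
open Set Filter Topology Metric Matrix

noncomputable section

namespace Vale.Agent.P354DA

open Vale.Agent.P354n (R4)
open Vale.Agent.P354I (X Dat P3 rm rp mix)
open Vale.Agent.P354J (PDy)
open Vale.Agent.P354XD (tb rp_tb)
open Vale.Agent.P354XE (Tw pt xs rd pb gin Bd ch En Par Ind kr ka D0)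
open Vale.Agent.P354XA
open Vale.Agent.P354XM (sh rot sh_fd sh_cd rot_norm sh_sh sh_zero sh_eq rd_sh)
open Vale.Agent.P354YI (Jb)
open Vale.Agent.P354YO (Sb sb_lor sb_gin bd_mono)
open Vale.Agent.P354YR (ci DE isCh open_DE open_DI)
open Vale.Agent.P354YJ (chain p0_mem dl_ne dl_dl dl_zero lg_dl abs_lg shell_cpt rd_inv)
open Vale.Agent.P354T (wt)
open Vale.Agent.P354YM

theorem inv_eq (q : Par) : P354YM.inv q = Par.lin ⟨0, 0, q.l⁻¹, q.Rᵀ⟩ := funext fun p => by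
  rw [P354YM.inv, Par.lin, div_eq_inv_mul]

theorem lin_inv {q : Par} (h : q.Rᵀ * q.R = 1) (hl : q.l ≠ 0) (p : R4) :
    q.lin (P354YM.inv q p) = p := by
  rw [inv_eq, Par.lin, lin_fst, Par.lin, xs_pt]
  simp only [mulVec_mulVec, mul_eq_one_comm.1 h, one_mulVec, mul_inv_cancel_left₀ hl]
  rfl

theorem lin_cd (q : Par) : ContDiff ℝ ∞ q.lin := (linL q).contDiff

theorem ci_en {M a r1 θ : ℝ} {σ : Bool} {w : R4} (h : |a| < M) (m : w ∈ DE M a σ)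
    (m' : w ∈ D0 M a r1) (t : θ ≤ Real.exp (ka M a * (ci M a σ w).1)) :
    ci M a σ w ∈ En M a r1 θ ∧ rd (ci M a σ w) = kr M a w := by
  have c := isCh h σ
  have e := c.rad _ (c.back.maps m)
  have f := congrArg Prod.fst (c.right _ m)
  rw [c.right _ m] at e
  refine ⟨⟨e ▸ m'.2.2, t, m'.2.1.trans_eq ?_⟩, e.symm⟩
  cases σ <;> exact f.symm

/-- What is proved at each point. -/
def Out (T : Tg) (J : X → R4) (k : Dat) (s η : ℝ) (y : X) : Prop :=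
  (∀ u ≠ 0, 0 < T.g (J y) (fderiv ℝ J y u) (fderiv ℝ J y u)) ∧ ∀ d, Ind T.g T.Xf J d → PDy d →
    ∀ a b, ∀ i ≤ 11, wt s i y * ‖iteratedFDeriv ℝ i (fun z => d.h z a b - k.h z a b) y‖ ≤ η ∧
      wt s i y * ‖iteratedFDeriv ℝ i (fun z => d.K z a b - k.K z a b) y‖ ≤ η

/-- The local estimate at y. -/
def Lc (j : Jd) (σ : Bool) (p : P3) (y : X) (C μ0 : ℝ) : Prop :=
  ∀ μ ≤ μ0, ∀ b G, Hy j σ p y μ b G → Ok (tb (pb (st b (Vm j σ p)) G) (pL y)) ∧ ∀ i k,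
    Jb 11 (fun z => (dat (pb (st b (Vm j σ p)) G)).h z i k - (j.kd p).h z i k) y (C * μ) ∧
    Jb 11 (fun z => (dat (pb (st b (Vm j σ p)) G)).K z i k - (j.kd p).K z i k) y (C * μ)

/-- The situation. -/
structure Cx (j : Jd) (r1 θ R s δ ε e c : ℝ) (N : ℕ) (d : Dat) (T : Tg) (J : X → R4) : Prop where
  h : j.Is
  lt : |j.a| < j.M
  r : rm j.M j.a < r1
  hT : T.Is ⟨j.M, j.a, r1, θ, R, s, δ, ε, N⟩ d
  hR : rp j.M j.a ≤ R
  hN : 12 ≤ N
  hε : ε ∈ Ioc 0 e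
  c0 : 0 < c
  hc : ∀ p, r1 ≤ rd p → ∀ v : R4, v.1 = 0 → ‖v‖ ^ 2 ≤ c * gin j.M j.a p v v
  εc : ε * c < 1
  pos : ∀ y ≠ 0, J y ∈ D0 j.M j.a r1 ∧ kr j.M j.a (J y) < rp j.M j.a
  sm : ContDiffOn ℝ ∞ J {0}ᶜ
  mP : ∀ σ, pp j.M (T.q σ) ∈ ball j.p0 j.ε0

namespace Cx
variable {j : Jd} {r1 θ R s δ ε e c η : ℝ} {N : ℕ} {d : Dat} {T : Tg} {J : X → R4} {y : X}
  {σ : Bool} (H : Cx j r1 θ R s δ ε e c N d T J)
include H

theorem mD (hy : y ≠ 0) : J y ∈ T.D := H.hT.sub (H.pos y hy).1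
theorem cJ (hy : y ≠ 0) : ContDiffAt ℝ ∞ J y :=
  H.sm.contDiffAt (isOpen_compl_singleton.mem_nhds hy)
theorem cc {w : R4} (hw : w ∈ DE j.M j.a σ) : ContDiffAt ℝ ∞ (ci j.M j.a σ) w :=
  (isCh H.lt σ).back.smooth.contDiffAt ((open_DE σ).mem_nhds hw)
theorem sb (hy : y ≠ 0) (m : J y ∈ DE j.M j.a σ) :
    Sb (pb (ch j.M j.a σ) T.g) (ci j.M j.a σ (J y)) :=
  Sb.pull (((isCh H.lt σ).right _ m).symm ▸ sb_lor H.hT.lor (H.mD hy))
    ((isCh H.lt σ).pull.smooth.contDiffAt (open_DI.mem_nhds ((isCh H.lt σ).back.maps m)))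
theorem sy (hy : y ≠ 0) (m : J y ∈ DE j.M j.a σ) (u v : R4) :
    pb (ch j.M j.a σ) T.g (ci j.M j.a σ (J y)) u v =
      pb (ch j.M j.a σ) T.g (ci j.M j.a σ (J y)) v u :=
  H.hT.lor.met.symm _ (((isCh H.lt σ).right _ m).symm ▸ H.mD hy) _ _

/-- The middle part. -/
theorem mid {C3 C4 C5 W : ℝ} (hy : y ≠ 0) (c4 : 0 ≤ C4) (w0 : 0 ≤ W) (a1 : J y ∈ DE j.M j.a true)
    (a2 : θ ≤ Real.exp (ka j.M j.a * (ci j.M j.a true (J y)).1))
    (a3 : Jb 13 (fun z => ci j.M j.a true (J z) - j.Js true j.p0 z) y (C4 * e))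
    (h3 : Lc j true j.p0 y C3 (e * (C4 + 1))) {k : Dat} (k1 : PDy k) (q : ∀ a b,
      Jb 11 (fun z => (j.kd j.p0).h z a b - k.h z a b) y (C5 * e) ∧
      Jb 11 (fun z => (j.kd j.p0).K z a b - k.K z a b) y (C5 * e))
    (hW : ∀ i ≤ 11, wt s i y ≤ W) (l8 : e * (W * (C3 * (C4 + 1) + C5)) ≤ η) : Out T J k s η y := by
  have h := H.h
  have hT := H.hT
  obtain ⟨b1, b2⟩ := ci_en H.lt a1 (H.pos y hy).1 a2
  have b3 : rd (ci j.M j.a true (J y)) ≤ R + 2 := by linarith [(H.pos y hy).2, H.hR]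
  have ev : ∀ᶠ z in 𝓝 y, z ≠ 0 ∧ J z ∈ DE j.M j.a true :=
    (isOpen_compl_singleton.eventually_mem hy).and
      ((H.cJ hy).continuousAt.eventually_mem ((open_DE _).mem_nhds a1))
  have pi : ∀ g : Tw, pb id g = g := fun g => by funext p u v; simp [pb]
  obtain ⟨ok, jt⟩ := h3 _ le_rfl (fun z => ci j.M j.a true (J z)) (pb (ch j.M j.a true) T.g)
    ⟨(H.cc a1).comp y (H.cJ hy), H.sb hy a1, H.sy hy a1,
      a3.mono le_rfl (by linarith [H.hε.1, H.hε.2]), bd_mono ((hT.ends true).near _ b1 b3).2.1 H.hN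
        (by nlinarith [H.hε.1, H.hε.2])⟩
  obtain ⟨S, E⟩ := sx_ch hT H.lt H.r H.c0 H.hc H.εc contDiff_id (σ := true) (J := J)
    (b := fun z => ci j.M j.a true (J z)) (V := Vm j true j.p0) (by simp)
    ((ev.and (jv_ev h (p0_mem h) hy)).mono fun z a => ⟨(H.cc a.1.2).comp z (H.cJ a.1.1), a.2.2⟩)
    b1 b3 (vm_pos h (p0_mem h) hy) (ev.mono fun z a => ((isCh H.lt true).right _ a.2).symm)
    (H.mD hy) (by rw [pi]; exact ok)
  rw [pi] at E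
  refine ⟨fun u => S.posJ (rp_tb hT.lor.isOpen hT.lor.met), fun d I pd a b i hi => ?_⟩
  have t := S.tr hT.lor E (ev.mono fun z a => I z a.1)
  have k0 := (h.hK.sta _ (p0_mem h) _ h.hT).1.1
  have n := isOpen_compl_singleton.mem_nhds hy
  have u1 := (((jt a b).1.congr (g := fun z => d.h z a b - (j.kd j.p0).h z a b)
    (t.mono fun z k => by simp only [k.1])).add (q a b).1
    (((pd.1 a b).1.contDiffAt n).sub ((k0.1 a b).1.contDiffAt n))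
    (((k0.1 a b).1.contDiffAt n).sub ((k1.1 a b).1.contDiffAt n))) i hi
  have u2 := (((jt a b).2.congr (g := fun z => d.K z a b - (j.kd j.p0).K z a b)
    (t.mono fun z k => by simp only [k.2])).add (q a b).2
    (((pd.1 a b).2.contDiffAt n).sub ((k0.1 a b).2.contDiffAt n))
    (((k0.1 a b).2.contDiffAt n).sub ((k1.1 a b).2.contDiffAt n))) i hi
  simp only [sub_add_sub_cancel] at u1 u2
  exact ⟨(mul_le_mul (hW i hi) u1 (norm_nonneg _) w0).trans (by linarith),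
    (mul_le_mul (hW i hi) u2 (norm_nonneg _) w0).trans (by linarith)⟩

/-- The ends. -/
theorem far {C1 C2 μ1 x c' φ : ℝ} (y1 : ‖y‖ = 1) (x1 : 1 < x) (s0 : 0 ≤ s) (θ1 : θ ≤ 1)
    (c2 : 0 ≤ C2) (e1 : e ≤ 1) (a1 : J (dl σ x y) ∈ DE j.M j.a σ)
    (a3 : Jb 13 (fun z => iq j.M j.a σ (T.q σ) (J (dl σ x z)) -
      sh c' φ (j.Js σ (pp j.M (T.q σ)) z)) y (e * (1 + x) ^ (-s)))
    (t0 : x / 4 ≤ (iq j.M j.a σ (T.q σ) (J (dl σ x y))).1)
    (h1 : Lc j σ (pp j.M (T.q σ)) y C1 μ1) (h2 : ∀ (c φ : ℝ) (h : Tw) (w : R4) (μ : ℝ),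
      Sb h (sh c φ w) → Bd 12 h (sh c φ w) μ → Bd 12 (pb (sh c φ) h) w (C2 * μ))
    (l6 : e * (2 + C2 * 4 ^ s) ≤ μ1) (l7 : e * (C1 * (2 + C2 * 4 ^ s)) ≤ η) :
    Out T J (mix (j.kd (pp j.M (T.q true))) (j.kd (pp j.M (T.q false)))) s η (dl σ x y) := by
  have h := H.h
  have hT := H.hT
  have r := rp_tb hT.lor.isOpen hT.lor.met
  obtain ⟨-, rm0, -, -, ka0, -⟩ := hor H.lt
  have ep := H.hε.1.trans_le H.hε.2
  have p4 : (0 : ℝ) < 4 ^ s := by positivity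
  have hy : y ≠ 0 := norm_ne_zero_iff.1 (y1 ▸ one_ne_zero)
  have hy' : dl σ x y ≠ 0 := dl_ne hy
  have lx : lg σ (dl σ x y) = x := by rw [lg_dl hy, lg, y1, Real.log_one, mul_zero, add_zero]
  obtain ⟨-, -, ql, qR, -⟩ : (T.q σ).Near j.M j.a ε := (hT.ends σ).par.1
  replace ql : 0 < (T.q σ).l := by linarith [(abs_lt.1 ql).1, H.hε.2]
  obtain ⟨b, hb⟩ : ∃ b : X → R4, b = fun z => sh (-c') (-φ)
    (iq j.M j.a σ (T.q σ) (J (dl σ x z))) := ⟨_, rfl⟩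
  have e1 : ∀ z, sh c' φ (b z) = iq j.M j.a σ (T.q σ) (J (dl σ x z)) := fun z => by
    simp only [hb, sh_sh, add_neg_cancel, sh_zero, id]
  have e2 : ∀ w, (T.q σ).lin (iq j.M j.a σ (T.q σ) w) = ci j.M j.a σ w := fun w =>
    lin_inv qR ql.ne' _
  have e3 : ∀ z, ((T.q σ).lin ∘ sh c' φ) (b z) = ci j.M j.a σ (J (dl σ x z)) := fun z => by
    rw [Function.comp, e1, e2]
  have e4 : ∀ w v, fderiv ℝ ((T.q σ).lin ∘ sh c' φ) w v = (T.q σ).lin (rot φ v) := fun w v =>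
    congrArg (· v) ((linL (T.q σ)).hasFDerivAt.comp w (sh_fd c' φ w)).fderiv
  have e5 : ∀ g : Tw, pb ((T.q σ).lin ∘ sh c' φ) g = pb (sh c' φ) (pb (T.q σ).lin g) :=
    fun g => by funext p u v; simp only [pb, e4, lin_fd, (sh_fd c' φ p).fderiv, Function.comp]
  obtain ⟨b1, b2⟩ := ci_en H.lt a1 (H.pos _ hy').1 (θ1.trans (Real.one_le_exp (by
    rw [← e2, lin_fst]; exact mul_nonneg ka0.le (mul_nonneg ql.le (by linarith)))))
  have b3 : rd (iq j.M j.a σ (T.q σ) (J (dl σ x y))) = kr j.M j.a (J (dl σ x y)) :=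
    (rd_inv qR _).trans b2
  have cd : ContDiff ℝ ∞ (dl σ x) := contDiff_const_smul _
  have ev : ∀ᶠ z in 𝓝 y, z ≠ 0 ∧ J (dl σ x z) ∈ DE j.M j.a σ :=
    (isOpen_compl_singleton.eventually_mem hy).and (((H.cJ hy').continuousAt.comp
      cd.continuous.continuousAt).eventually_mem ((open_DE _).mem_nhds a1))
  have ci' : ∀ᶠ z in 𝓝 y, ContDiffAt ℝ ∞ (fun z => iq j.M j.a σ (T.q σ) (J (dl σ x z))) z :=
    ev.mono fun z a => (inv_eq _ ▸ lin_cd _ : ContDiff ℝ ∞ (P354YM.inv (T.q σ))).contDiffAt.comp z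
      ((H.cc a.2).comp z ((H.cJ (dl_ne a.1)).comp z cd.contDiffAt))
  have jv := jv_ev h (σ := σ) (H.mP σ) hy
  have cb : ∀ᶠ z in 𝓝 y, ContDiffAt ℝ ∞ b z :=
    ci'.mono fun z a => hb ▸ (sh_cd _ _).contDiffAt.comp z a
  have p1 : 0 < (1 + x) ^ (-s) := Real.rpow_pos_of_pos (by linarith) _
  have p2 : (1 + x) ^ (-s) ≤ 1 := Real.rpow_le_one_of_one_le_of_nonpos (by linarith) (by linarith)
  have p3 : (1 + |(iq j.M j.a σ (T.q σ) (J (dl σ x y))).1|) ^ (-s) ≤ 4 ^ s * (1 + x) ^ (-s) := by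
    refine (Real.rpow_le_rpow_of_nonpos (x := (1 + x) / 4) (by linarith)
      (by linarith [le_abs_self (iq j.M j.a σ (T.q σ) (J (dl σ x y))).1]) (by linarith)).trans_eq ?_
    rw [Real.div_rpow (by linarith) (by norm_num), Real.rpow_neg (x := 4) (by norm_num),
      div_inv_eq_mul, mul_comm]
  have s1 : Sb (pb (T.q σ).lin (pb (ch j.M j.a σ) T.g)) (sh c' φ (b y)) :=
    Sb.pull (by rw [e1, e2]; exact H.sb hy' a1) (lin_cd _).contDiffAt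
  have j1 : Jb 13 (fun z => b z - j.Js σ (pp j.M (T.q σ)) z) y
      (e * (2 + C2 * 4 ^ s) * (1 + x) ^ (-s)) := by
    refine ((Jb.clm (rot (-φ)) a3 (ci'.self_of_nhds.sub ((sh_cd _ _).contDiffAt.comp y
      jv.self_of_nhds.1))).congr (.of_forall fun z => ?_)).mono le_rfl ?_
    · have := sh_sh (-c') (-φ) c' φ (j.Js σ (pp j.M (T.q σ)) z)
      rw [neg_add_cancel, neg_add_cancel, sh_zero, id, sh_eq (-c')] at this
      simp only [hb, map_sub, sh_eq (-c')]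
      rw [eq_sub_of_add_eq this]
      abel
    · nlinarith [mul_le_mul_of_nonneg_right (rot_norm (-φ)) (mul_pos ep p1).le,
        mul_nonneg (mul_nonneg ep.le (mul_nonneg c2 p4.le)) p1.le]
  have j2 : Bd 12 (pb ((T.q σ).lin ∘ sh c' φ) (pb (ch j.M j.a σ) T.g) - gin (T.q σ).M (T.q σ).a)
      (b y) (e * (2 + C2 * 4 ^ s) * (1 + x) ^ (-s)) := by
    have k := h2 c' φ _ (b y) _ (s1.sub (sb_gin (by
      rw [e1, b3]; linarith [(H.pos _ hy').1.2.2, H.r]))) (e1 y ▸ bd_mono ((hT.ends σ).conv _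
      (e2 _ ▸ b1) (b3.trans_le ((H.pos _ hy').2.le.trans H.hR))) H.hN le_rfl)
    rw [e5, ← pb_sh c' φ]
    refine bd_mono k le_rfl ?_
    simp only [e1]
    nlinarith [mul_le_mul_of_nonneg_left (mul_le_mul H.hε.2 p3 (by positivity) ep.le) c2,
      mul_pos ep p1]
  obtain ⟨ok, jt⟩ := h1 _ ((mul_le_of_le_one_right (by positivity) p2).trans l6) b
    (pb ((T.q σ).lin ∘ sh c' φ) (pb (ch j.M j.a σ) T.g))
    ⟨cb.self_of_nhds, e5 _ ▸ s1.pull (sh_cd _ _).contDiffAt, fun u v =>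
      hT.lor.met.symm _ (by rw [e3, (isCh H.lt σ).right _ a1]; exact H.mD hy') _ _, j1, j2⟩
  obtain ⟨S, E⟩ := sx_ch hT H.lt H.r H.c0 H.hc H.εc ((lin_cd (T.q σ)).comp (sh_cd c' φ)) (σ := σ)
    (J := fun z => J (dl σ x z)) (b := b) (V := Vm j σ (pp j.M (T.q σ)))
    (fun v a => by rw [e4, lin_fst]; exact mul_pos ql (by simpa [P354XM.rot_ap, sh] using a))
    ((cb.and jv).mono fun z a => ⟨a.1, a.2.2⟩) (e3 y ▸ b1)
    (by rw [e3, b2]; linarith [(H.pos _ hy').2, H.hR]) (vm_pos h (H.mP σ) hy)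
    (ev.mono fun z a => by rw [e3]; exact ((isCh H.lt σ).right _ a.2).symm) (H.mD hy') ok
  have x0' := Real.exp_pos (P354D.sgn σ * x)
  refine ⟨fun u u0 => ?_, fun d I _ a b i hi => ?_⟩
  · have := S.posJ r (smul_ne_zero (inv_ne_zero x0'.ne') u0)
    simp only [dl, fderiv_comp_smul, _root_.smul_apply, map_smul, inv_smul_smul₀ x0'.ne'] at this
    exact this
  have t := (S.tr hT.lor E (ev.mono fun z a => ind_sc r (H.mD (dl_ne a.1)) (I _ (dl_ne a.1)))).and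
    (cd.continuous.continuousAt.eventually (mix_ev (fun σ => j.kd (pp j.M (T.q σ))) hy'
      (σ := σ) (by linarith)))
  have lg' : |Real.log (Real.exp (P354D.sgn σ * x))| = x := by
    rw [Real.log_exp, abs_mul, abs_of_pos (show 0 < x by linarith)]
    cases σ <;> simp [P354D.sgn]
  have B : C1 * (e * (2 + C2 * 4 ^ s) * (1 + x) ^ (-s)) ≤ η * (1 + x) ^ (-s) := by
    linarith [mul_le_mul_of_nonneg_right l7 p1.le]
  refine ⟨wt_end y1 x0' lg' s0 (t.mono fun z k => ?_) ((jt a b).1.mono le_rfl B) i hi,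
    wt_end y1 x0' lg' s0 (t.mono fun z k => ?_) ((jt a b).2.mono le_rfl B) i hi⟩
  · have k2 := k.2.1
    rw [dl] at k2
    rw [← k.1.1, k2]
    simp only [sc, Jd.kd, P354E3.kd_h, P354E3.ten_smul _ x0', Matrix.smul_apply, smul_eq_mul]
    field_simp
  · have k2 := k.2.2
    rw [dl] at k2
    rw [← k.1.2, k2]
    simp only [sc, Jd.kd, P354E3.kd_K, P354E3.ten_smul _ x0', Matrix.smul_apply, smul_eq_mul]
    field_simp

end Cx

/-- **DAT.** -/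
theorem dat : DAT := fun j r1 r0 r2 s δ h hB hR => by
  obtain ⟨C0, hC0⟩ := chain j r1 r0 r2 s δ h hB hR
  obtain ⟨M0, rm0, -, -, ka0, -⟩ := hor hB.lt
  have ε0 := h.hG.pos0.2.1
  have hP := isCompact_closedBall j.p0 (j.ε0 / 2)
  have sP : closedBall j.p0 (j.ε0 / 2) ⊆ ball j.p0 j.ε0 := closedBall_subset_ball (by linarith)
  choose C1 c1 μ1 m1 h1 using fun σ => loc h σ hP sP (isCompact_sphere (0 : X) 1)
    fun _ => P354E3.sph_ne
  obtain ⟨C2, c2, h2⟩ := sh_bd 12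
  obtain ⟨c, c0, hc⟩ := near_t M0.le j.a (rm0.trans_lt hB.r1.1)
  refine ⟨max 2 (4 * C0), fun x0 hx0 η hη => ?_⟩
  obtain ⟨x2, x4⟩ := max_le_iff.1 hx0
  obtain ⟨e0, e0p, hch⟩ := hC0 x0 (by linarith)
  have hK := shell_cpt x0
  obtain ⟨C3, c3, μ3, m3, h3⟩ := loc h true hP sP hK fun _ a => a.1
  obtain ⟨C4, c4, e4, e4p, h4⟩ := mid_b hK (fun _ a => a.1) h
  obtain ⟨C5, c5, h5⟩ := mix_bd hK (fun _ a => a.1) h
  obtain ⟨W, w0, hW⟩ := wt_bd hK (fun _ a => a.1) s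
  have η0 : 0 < η / 217 := by positivity
  obtain ⟨e, ⟨⟨⟨l1, l2⟩, l3, l4⟩, ⟨l5, l6⟩, l7, l8⟩, ep⟩ := (((((small 1 e0p).and
    (small 1 e4p)).and ((small 1 one_pos).and (small 2 ε0))).and (((small c one_pos).and
    (eventually_all.2 fun σ => (small (2 + C2 * 4 ^ s) (m1 σ)).and
      (small (C1 σ * (2 + C2 * 4 ^ s)) η0))).and ((small (C4 + 1) m3).and
    (small (W * (C3 * (C4 + 1) + C5)) η0)))).and self_mem_nhdsWithin).exists
  rw [mul_one] at l1 l2 l3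
  refine ⟨e, ep, min 1 (Real.exp (ka j.M j.a * -C4)), by positivity, fun θ hθ => ⟨rp j.M j.a,
    fun R hR' => ⟨12, fun N hN => ⟨e, ep, fun ε hε d T J hT hA => ?_⟩⟩⟩⟩
  obtain ⟨θ1, θ2⟩ := lt_min_iff.1 hθ.2
  have hq : ∀ σ, ∀ e' ≥ e, (T.q σ).Near j.M j.a e' := fun σ e' he =>
    have k := (hT.ends σ).par.1
    have l := hε.2.trans he
    ⟨k.1.trans_le l, k.2.1.trans_le l, k.2.2.1.trans_le l, k.2.2.2.1,
      fun a b => (k.2.2.2.2 a b).trans_le l⟩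
  have CH := hch 13 e l1.le {0}ᶜ J T.q (fun σ => hq σ _ l1.le)
    ⟨fun _ a => a, fun σ y a x _ => dl_ne a⟩ hA
  have mp : ∀ σ, pp j.M (T.q σ) ∈ closedBall j.p0 e := fun σ => by
    simp only [mem_closedBall, Prod.dist_eq, pp, Jd.p0, Real.dist_eq, max_le_iff, sub_self, abs_zero]
    exact ⟨(hq σ _ le_rfl).1.le, (hq σ _ le_rfl).2.1.le, le_of_lt ep⟩
  have mP : ∀ σ, pp j.M (T.q σ) ∈ closedBall j.p0 (j.ε0 / 2) := fun σ =>
    closedBall_subset_closedBall (by linarith) (mp σ)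
  have H : Cx j r1 θ R s δ ε e c N d T J := ⟨h, hB.lt, hB.r1.1, hT, hR', hN, hε, c0, hc,
    (mul_le_mul_of_nonneg_right hε.2 c0.le).trans_lt l5,
    fun y hy => ⟨(CH y hy).1.1, (CH y hy).1.2.2⟩, hA.sm, fun σ => sP (mP σ)⟩
  have A : ∀ y ≠ 0, Out T J (mix (j.kd (pp j.M (T.q true))) (j.kd (pp j.M (T.q false)))) s
      (η / 217) y := fun y hy => by
    rcases le_total |Real.log ‖y‖| x0 with k | k
    · obtain ⟨a1, a2, a3⟩ := h4 y ⟨hy, k⟩ e l2.le J (H.cJ hy)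
        (hA.mid y hy (k.trans (le_add_of_nonneg_right zero_le_one)))
      exact H.mid hy c4 w0 a1 (θ2.le.trans (Real.exp_le_exp.2 (mul_le_mul_of_nonneg_left a2 ka0.le)))
        a3 (fun μ hμ => h3 _ (mem_closedBall_self (by linarith)) y ⟨hy, k⟩ μ (hμ.trans l7.le))
        (P354M2.mix_pdy (h.hK.sta _ (H.mP true) _ h.hT).1.1 (h.hK.sta _ (H.mP false) _ h.hT).1.1)
        (h5 y ⟨hy, k⟩ e l3.le _ (mp true) _ (mp false)) (fun i hi => hW i hi y ⟨hy, k⟩) l8.le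
    obtain ⟨σ, hσ⟩ : ∃ σ, x0 ≤ lg σ y := by
      rcases le_abs.1 k with k | k
      exacts [⟨true, by simpa [lg, P354D.sgn] using k⟩, ⟨false, by simpa [lg, P354D.sgn] using k⟩]
    have z : dl σ (-lg σ y) y ≠ 0 := dl_ne hy
    have l0 : lg σ (dl σ (-lg σ y) y) = 0 := by rw [lg_dl hy, neg_add_cancel]
    have z1 : ‖dl σ (-lg σ y) y‖ = 1 := by
      rw [← Real.exp_log (norm_pos_iff.2 z), abs_eq_zero.1 ((abs_lg σ _).symm.trans
        (abs_eq_zero.2 l0)), Real.exp_zero]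
    have e : dl σ (lg σ y) (dl σ (-lg σ y) y) = y := by rw [dl_dl, add_neg_cancel, dl_zero]
    obtain ⟨c', φ, L⟩ := hA.box σ _ hσ
    obtain ⟨a1, a3⟩ := L _ z (by rw [l0]; norm_num) (dl_ne z)
    exact e ▸ H.far z1 (by linarith) (zero_le_one.trans hB.hs.le) θ1.le c2 l3.le a1 a3
      (by rw [e]; linarith [((CH y hy).2 σ (by linarith)).1])
      (h1 σ _ (mP σ) _ (mem_sphere_zero_iff_norm.2 z1)) h2 (l6 σ).1.le (l6 σ).2.le
  obtain ⟨d', k1, k2, k3⟩ := ex_dat hT.lor hA.sm fun y hy => ⟨H.mD hy, (A y hy).1⟩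
  refine ⟨d', k1, k2, k3, (P354T.pm_le_of (η := ((11 : ℕ) + 1) * (η / 217)) (by positivity)
    fun a b => ⟨P354T.wn_le_of fun i hi y hy => ((A y hy).2 d' k2 k3 a b i hi).1,
      P354T.wn_le_of fun i hi y hy => ((A y hy).2 d' k2 k3 a b i hi).2⟩).trans_lt
    ((ENNReal.ofReal_lt_ofReal_iff hη).2 (by push_cast; linarith))⟩

end Vale.Agent.P354DA
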