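import Vale.Agent.P354XA.Indl
import Vale.Agent.P354YO.Ob

/-!
The data induced on a general slice, by a chart which straightens the slice.
-/

set_option maxSynthPendingDepth 3

open scoped ContDiff
open Set Filter Topology

noncomputable section

namespace Vale.Agent.P354DA

open Vale.Agent.P354n (R4)
open Vale.Agent.P354I (X Dat pd ee Con)
open Vale.Agent.P354J (PDy)
open Vale.Agent.P354RC (B2 Rp C1 Gm cv C1_ap fd_pb sym2 surj_of_inj)
open Vale.Agent.P354XD (tb rp_tb)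
open Vale.Agent.P354XE (Tw pt xs pb Lor eT Ind)
open Vale.Agent.P354XU (IndAt)
open Vale.Agent.P354XA
open Vale.Agent.P354XK (pd_cp pd_congr om_eq)
open Vale.Agent.P354YI (Oj at_fd at_comp)
open Vale.Agent.P354YO (tb_pb)

/-- The levels of t are spacelike and d/dt is timelike. -/
structure Ok (h : B2) : Prop where
  symm : ∀ a b, h a b = h b a
  pos : ∀ v ≠ 0, v.1 = 0 → 0 < h v v
  tl : h eT eT < 0

theorem kc_ok {B C : ℝ} {h : B2} (k : h ∈ Kc B C) (t : h eT eT < 0) : Ok h :=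
  ⟨k.2.1, fun v v0 hv => (mul_pos_iff_of_pos_left (kc_pos k)).1
    ((pow_pos (norm_pos_iff.2 v0) 2).trans_le (k.2.2.1 v hv)), t⟩

/-- Uniform bounds near a compact set of forms. -/
theorem ok_cpt {K : Set B2} (hK : IsCompact K) (h : ∀ k ∈ K, Ok k) : ∃ B C, ∃ δ > 0, ∀ k ∈ K,
    ∀ k' : B2, (∀ a b, k' a b = k' b a) → ‖k' - k‖ ≤ δ → k' ∈ Kc B C ∧ k' eT eT < 0 := by
  have S : IsCompact (Metric.sphere (0 : R4) 1 ∩ {v | v.1 = 0}) :=
    (isCompact_sphere _ _).inter_right (isClosed_eq continuous_fst continuous_const)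
  obtain ⟨c, c0, hc⟩ := (hK.prod S).exists_forall_le' (a := 0)
    (f := fun z : B2 × R4 => min (z.1 z.2 z.2) (-z.1 eT eT)) (by fun_prop) fun z hz =>
      lt_min ((h _ hz.1).pos _ (by rintro e; simpa [e] using hz.2.1) hz.2.2)
        (neg_pos.2 (h _ hz.1).tl)
  obtain ⟨C, hC⟩ := hK.isBounded.exists_norm_le
  have n1 : ‖eT‖ = 1 := by simp [eT]
  refine ⟨1 + 2 / c, C + c / 2, c / 2, by positivity, fun k hk k' s e => ?_⟩
  have b : ∀ v : R4, ‖v‖ = 1 → |k' v v - k v v| ≤ c / 2 := fun v hv => by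
    have := (k' - k).le_opNorm₂ v v
    rw [hv, mul_one, mul_one] at this
    exact this.trans e
  have u : ((0, 1, 0, 0) : R4) ∈ Metric.sphere (0 : R4) 1 ∩ {v | v.1 = 0} := by
    simp [Prod.norm_def]
  have t : k' eT eT ≤ -(c / 2) := by
    linarith [(abs_le.1 (b _ n1)).2, (le_min_iff.1 (hc (k, _) ⟨hk, u⟩)).2]
  have q : 2 / c * (c / 2) = 1 := by field_simp
  have q0 : 0 < 2 / c := by positivity
  refine ⟨⟨by linarith [hC k hk, norm_le_norm_add_norm_sub' k' k], s, fun v hv => ?_, eT,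
    by linarith, by nlinarith⟩, by linarith⟩
  rcases eq_or_ne v 0 with rfl | v0
  · simp
  have n := norm_pos_iff.2 v0
  have w : ‖‖v‖⁻¹ • v‖ = 1 := by rw [norm_smul, norm_inv, norm_norm, inv_mul_cancel₀ n.ne']
  have a : c / 2 ≤ k' (‖v‖⁻¹ • v) (‖v‖⁻¹ • v) := by
    linarith [(abs_le.1 (b _ w)).1, (le_min_iff.1 (hc (k, ‖v‖⁻¹ • v)
      ⟨hk, mem_sphere_zero_iff_norm.2 w, by simp [hv]⟩)).1]
  simp only [map_smul, smul_apply, smul_eq_mul] at a
  rw [← mul_assoc, ← sq, inv_pow, le_inv_mul_iff₀ (by positivity)] at a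
  nlinarith [sq_nonneg ‖v‖]

theorem Ok.kc {h : B2} (k : Ok h) : ∃ B C, h ∈ Kc B C :=
  let ⟨B, C, _, d, e⟩ := ok_cpt isCompact_singleton fun _ a => (mem_singleton_iff.1 a).symm ▸ k
  ⟨B, C, (e h rfl h k.symm (by simpa using d.le)).1⟩

/-- S is a chart in which the slice J is t = 0 near y. -/
structure Sx (g : Tw) (D : Set R4) (Xf S : R4 → R4) (J : X → R4) (y : X) : Prop where
  sm : ∀ᶠ p in 𝓝 (pL y), ContDiffAt ℝ ∞ S p
  eq : ∀ᶠ z in 𝓝 y, J z = S (pL z)
  mem : J y ∈ D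
  ok : Ok (tb (pb S g) (pL y))
  cau : g (J y) (Xf (J y)) (Xf (J y)) ≤ 0
  ori : g (J y) (Xf (J y)) (fderiv ℝ S (pL y) eT) < 0

/-- The unit normal. -/
def nv (g : Tw) (S : R4 → R4) (z : X) : R4 := fderiv ℝ S (pL z) (nn (tb (pb S g) (pL z)))

variable {g : Tw} {D : Set R4} {Xf S : R4 → R4} {J : X → R4} {y : X} {d : Dat}

theorem tb_ev (r : Rp g (tb g) D) {p : R4} (s : ContinuousAt S p) (m : S p ∈ D) :
    tb (pb S g) =ᶠ[𝓝 p] P354RC.pb (tb g) S :=
  (s.eventually_mem (r.op.mem_nhds m)).mono fun _ hq => tb_pb (met_bil r.met hq)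

namespace Sx
variable (s : Sx g D Xf S J y)
include s

theorem cd : ContDiffAt ℝ ∞ S (pL y) := s.sm.self_of_nhds
theorem val : J y = S (pL y) := s.eq.self_of_nhds
theorem cJ : ContDiffAt ℝ ∞ J y :=
  (at_comp s.cd pL.contDiff.contDiffAt).congr_of_eventuallyEq s.eq

theorem pd1 (i : Fin 3) : ∀ᶠ z in 𝓝 y, pd i J z = fderiv ℝ S (pL z) (pL (ee i)) := by
  filter_upwards [s.eq.eventually_nhds, pL.continuous.continuousAt.eventually s.sm] with z a b
  rw [pd_congr a, pd_cp b pL.contDiff.contDiffAt, pd_pL]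

theorem pd2 (i k : Fin 3) :
    pd i (pd k J) y = fderiv ℝ (fderiv ℝ S) (pL y) (pL (ee i)) (pL (ee k)) := by
  rw [pd_congr (s.pd1 k), pd_cp (c := fun p => fderiv ℝ S p (pL (ee k)))
    ((at_fd s.cd).clm_apply contDiffAt_const) pL.contDiff.contDiffAt, pd_pL,
    P354RC.fd_ap0 (at_fd s.cd)]

variable (r : Rp g (tb g) D)
include r

theorem ev0 : tb (pb S g) =ᶠ[𝓝 (pL y)] P354RC.pb (tb g) S :=
  tb_ev r s.cd.continuousAt (s.val ▸ s.mem)

theorem ap (a b : R4) : tb (pb S g) (pL y) a b =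
    tb g (J y) (fderiv ℝ S (pL y) a) (fderiv ℝ S (pL y) b) := by
  rw [(s.ev0 r).self_of_nhds, P354RC.pb_ap, s.val]

theorem ctb : ContDiffAt ℝ ∞ (tb (pb S g)) (pL y) :=
  (P354RC.pb_cd (r.at (s.val ▸ s.mem)) s.cd).congr_of_eventuallyEq (s.ev0 r)

theorem c1 (a b c : R4) : C1 (tb (pb S g)) (pL y) a b c =
    C1 (tb g) (J y) (fderiv ℝ S (pL y) a) (fderiv ℝ S (pL y) b) (fderiv ℝ S (pL y) c) +
      tb g (J y) (fderiv ℝ (fderiv ℝ S) (pL y) a b) (fderiv ℝ S (pL y) c) := by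
  have m : S (pL y) ∈ D := s.val ▸ s.mem
  simp only [C1_ap, (s.ev0 r).fderiv_eq, fd_pb (r.at m) s.cd, s.val]
  rw [sym2 s.cd b a, sym2 s.cd c a, sym2 s.cd c b, r.symm _ m (fderiv ℝ S (pL y) b),
    r.symm _ m (fderiv ℝ S (pL y) a)]
  ring

theorem surj : Function.Surjective (fderiv ℝ S (pL y)) := by
  obtain ⟨B, C, k⟩ := s.ok.kc
  refine surj_of_inj ((injective_iff_map_eq_zero _).2 fun a ha => (kc_inv k).injective ?_)
  refine ContinuousLinearMap.ext fun b => ?_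
  rw [s.ap r, ha, map_zero, map_zero]
  rfl

/-- The time orientation in the chart. -/
theorem fut : ∃ W, fderiv ℝ S (pL y) W = Xf (J y) ∧ 0 < W.1 := by
  obtain ⟨W, e⟩ := s.surj r (Xf (J y))
  refine ⟨W, e, pos_of_ker (B := fun a b => tb (pb S g) (pL y) a b) ⟨by simp, by simp, by simp,
    by simp⟩ s.ok.symm (.fst ℝ ℝ _) s.ok.pos (Z := eT) one_pos s.ok.tl.le ?_ ?_⟩
  · rw [s.ap r, e, ← r.eq _ s.mem]; exact s.cau
  · rw [s.ap r, e, ← r.eq _ s.mem]; exact s.ori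

theorem nor : tb g (J y) (nv g S y) (nv g S y) = -1 ∧ ∀ i k,
    tb g (J y) (pd i J y) (nv g S y) = 0 ∧
    tb g (J y) (pd i J y) (pd k J y) = (dat (pb S g)).h y i k ∧
    P354XK.om (tb g) J i (pd k J) (nv g S) y = -(dat (pb S g)).K y i k := by
  obtain ⟨B, C, k⟩ := s.ok.kc
  refine ⟨(s.ap r _ _).symm.trans (nn_nn k), fun i l => ?_⟩
  rw [om_eq r s.mem, s.pd2, (s.pd1 i).self_of_nhds, (s.pd1 l).self_of_nhds]
  refine ⟨(s.ap r _ _).symm.trans (nn_ap k _ rfl), (s.ap r _ _).symm, ?_⟩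
  simp only [dat, Matrix.of_apply, neg_neg, s.c1 r]
  exact add_comm _ _

theorem ind : IndAt g Xf J (dat (pb S g)) y := by
  obtain ⟨B, C, k⟩ := s.ok.kc
  obtain ⟨W, e, w⟩ := s.fut r
  obtain ⟨n1, n2⟩ := s.nor r
  refine ⟨Gm (tb g), nv g S y, (r.conn s.mem).2 fun _ _ => rfl, (r.eq _ s.mem _ _).trans n1, ?_,
    fun i l => ?_⟩
  · have p := Real.sqrt_pos.2 (neg_pos.2 (gt_neg k))
    rw [r.eq _ s.mem, ← e, nv, ← s.ap r, nn, map_smul, smul_apply, gt_ap k]
    exact mul_neg_of_neg_of_pos (neg_lt_zero.2 (inv_pos.2 p)) w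
  · simp only [r.eq _ s.mem]
    refine ⟨(n2 i l).1, (n2 i l).2.1, ?_⟩
    rw [r.symm _ s.mem]
    exact neg_eq_iff_eq_neg.2 (n2 i l).2.2

/-- The induced data are unique. -/
theorem uniq (I : IndAt g Xf J d y) :
    d.h y = (dat (pb S g)).h y ∧ d.K y = (dat (pb S g)).K y := by
  obtain ⟨B, C, k⟩ := s.ok.kc
  obtain ⟨W, e, w⟩ := s.fut r
  obtain ⟨G, n, c, n1, n2, n3⟩ := I
  obtain ⟨m, rfl⟩ := s.surj r n
  have N := (s.nor r).2
  simp only [r.eq _ s.mem, (r.conn s.mem).1 c] at n1 n2 n3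
  have z : ∀ v : R4, v.1 = 0 → tb (pb S g) (pL y) v m = 0 := fun v hv => by
    have := fun i => (n3 i 0).1
    simp only [fun i => (s.pd1 i).self_of_nhds, ← s.ap r] at this
    rw [sp_eq hv]
    simp only [map_add, map_smul, add_apply, smul_apply,
      this, smul_zero, add_zero]
  rw [← s.ap r] at n1
  rw [← e, ← s.ap r, s.ok.symm] at n2
  have m0 : m.1 ≠ 0 := fun a => by linarith [z m a]
  have q := z (W - (W.1 / m.1) • m) (by simp [m0])
  rw [map_sub, map_smul, sub_apply, smul_apply, n1,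
    smul_eq_mul] at q
  have u := nn_uniq k n1 ((div_pos_iff_of_pos_left w).1 (by linarith)) z
  refine ⟨Matrix.ext fun i l => (n3 i l).2.1.symm.trans (N i l).2.1, Matrix.ext fun i l => ?_⟩
  rw [← (n3 i l).2.2, r.symm _ s.mem, u]
  exact neg_eq_iff_eq_neg.2 (N i l).2.2

theorem cnv : ContDiffAt ℝ ∞ (nv g S) y :=
  let ⟨_, _, k⟩ := s.ok.kc
  (at_comp (at_fd s.cd) pL.contDiff.contDiffAt).clm_apply (at_comp (G := nn)
    (f := fun z => tb (pb S g) (pL z)) (nn_cd k) (at_comp (s.ctb r) pL.contDiff.contDiffAt))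

theorem cdat (a b : Fin 3) : ContDiffAt ℝ ∞ (fun z => (dat (pb S g)).h z a b) y ∧
    ContDiffAt ℝ ∞ (fun z => (dat (pb S g)).K z a b) y :=
  let ⟨_, _, k⟩ := s.ok.kc
  have o := oj_dat (m := 0) (y := fun _ : Unit => y) (g := fun _ => pb S g)
    (Oj.fix isCompact_singleton (fun _ hp => (mem_singleton_iff.1 hp).symm ▸ s.ctb r)
      fun _ => rfl) (fun _ => k) a b
  ⟨o.1.sm (), o.2.sm ()⟩

theorem posd : ((dat (pb S g)).h y).PosDef ∧ ((dat (pb S g)).K y).IsSymm := by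
  refine ⟨.of_dotProduct_mulVec_pos (Matrix.isHermitian_iff_isSymm.2
    (.ext fun a b => s.ok.symm _ _)) fun v hv => ?_, .ext fun a b => ?_⟩
  · have a := s.ok.pos (∑ i, v i • pL (ee i)) (fun e => hv ?_)
      (by simp [Prod.fst_sum, ← pL_eq, pt])
    · refine a.trans_eq ?_
      simp only [dotProduct, Matrix.mulVec, Fin.sum_univ_three, star_trivial, dat, map_add,
        map_smul, Matrix.of_apply, add_apply, smul_apply,
        smul_eq_mul]
      ring
    · have := sq_le v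
      rw [e, norm_zero, zero_pow two_ne_zero, mul_zero] at this
      funext i
      exact pow_eq_zero_iff two_ne_zero |>.1 ((Finset.sum_eq_zero_iff_of_nonneg
        fun _ _ => sq_nonneg _).1 (this.antisymm (by positivity)) i (Finset.mem_univ _))
  · simp only [dat, Matrix.of_apply, s.c1 r]
    rw [C1_ap, C1_ap, sym2 s.cd (pL (ee a)), r.dsym s.mem (fderiv ℝ S (pL y) (nn _))]
    ring

end Sx

/-- The conditions are open. -/
theorem Sx.ev (s : Sx g D Xf S J y) (l : Lor g D Xf) : ∀ᶠ z in 𝓝 y, Sx g D Xf S J z := by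
  have r := rp_tb l.isOpen l.met
  have c := pL.continuous.continuousAt (x := y)
  have m := s.cJ.continuousAt.eventually_mem (l.isOpen.mem_nhds s.mem)
  obtain ⟨B, C, δ, d0, e⟩ := ok_cpt isCompact_singleton fun _ a =>
    (mem_singleton_iff.1 a).symm ▸ s.ok
  have c1 : ContinuousAt (fun z => tb g (J z) (Xf (J z)) (fderiv ℝ S (pL z) eT)) y :=
    (((r.at s.mem).continuousAt.comp s.cJ.continuousAt).clm_apply
      ((l.cont.continuousAt (l.isOpen.mem_nhds s.mem)).comp s.cJ.continuousAt)).clm_apply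
      (((at_fd s.cd).continuousAt.comp c).clm_apply continuousAt_const)
  filter_upwards [c.eventually s.sm.eventually_nhds, s.eq.eventually_nhds, m,
    c.eventually (s.ev0 r), c1.eventually_lt continuousAt_const (r.eq _ s.mem _ _ ▸ s.ori),
    (((s.ctb r).continuousAt.comp c).sub continuousAt_const).norm.eventually_lt continuousAt_const
      (show ‖tb (pb S g) (pL y) - tb (pb S g) (pL y)‖ < δ by simpa using d0)]
    with z a1 a2 a3 a4 a5 a6
  have k := e _ rfl (tb (pb S g) (pL z)) (fun a b => by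
    rw [a4, P354RC.pb_ap, P354RC.pb_ap, r.symm _ (a2.self_of_nhds ▸ a3)]) a6.le
  exact ⟨a1, a2, a3, kc_ok k.1 k.2, (l.tl _ a3).le, r.eq _ a3 _ _ ▸ a5⟩

/-- The space part as a linear map, and the standard straightening. -/
def xL : R4 →L[ℝ] X :=
  (EuclideanSpace.equiv (Fin 3) ℝ).symm.toContinuousLinearMap.comp (.pi ![cv 1, cv 2, cv 3])
def st (b V : X → R4) (p : R4) : R4 := b (xL p) + p.1 • V (xL p)

theorem xL_pL (y : X) : xL (pL y) = y := by ext i; fin_cases i <;> rfl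
theorem xL_eT : xL eT = 0 := by ext i; fin_cases i <;> rfl
theorem pL_xL {v : R4} (hv : v.1 = 0) : pL (xL v) = v := Prod.ext hv.symm rfl

variable {b V : X → R4}

theorem st_pL (z : X) : st b V (pL z) = b z := by
  rw [st, xL_pL, show (pL z).1 = 0 from rfl, zero_smul, add_zero]

theorem st_cd {p : R4} (hb : ContDiffAt ℝ ∞ b (xL p)) (hV : ContDiffAt ℝ ∞ V (xL p)) :
    ContDiffAt ℝ ∞ (st b V) p := (at_comp hb xL.contDiff.contDiffAt).add
  (contDiffAt_fst.smul (at_comp hV xL.contDiff.contDiffAt))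

theorem st_sm (h : ∀ᶠ z in 𝓝 y, ContDiffAt ℝ ∞ b z ∧ ContDiffAt ℝ ∞ V z) :
    ∀ᶠ p in 𝓝 (pL y), ContDiffAt ℝ ∞ (st b V) p :=
  ((xL.continuous.tendsto' _ _ (xL_pL y)).eventually h).mono fun _ a => st_cd a.1 a.2

theorem st_fd (hb : ContDiffAt ℝ ∞ b y) (hV : ContDiffAt ℝ ∞ V y) (u : R4) :
    fderiv ℝ (st b V) (pL y) u = fderiv ℝ b y (xL u) + u.1 • V y := by
  have k := fun {f : X → R4} (h : ContDiffAt ℝ ∞ f y) => (show HasFDerivAt f _ (xL (pL y)) from
    (xL_pL y).symm ▸ (h.differentiableAt (by simp)).hasFDerivAt).comp (pL y) xL.hasFDerivAt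
  rw [show fderiv ℝ (st b V) (pL y) = _ from ((k hb).add (hasFDerivAt_fst.smul (k hV))).fderiv]
  simp [xL_pL, show (pL y).1 = 0 from rfl]

/-- Existence of the induced data. -/
theorem ex_dat (l : Lor g D Xf) (hJ : ContDiffOn ℝ ∞ J {0}ᶜ) (h : ∀ y ≠ 0, J y ∈ D ∧
    ∀ u ≠ 0, 0 < g (J y) (fderiv ℝ J y u) (fderiv ℝ J y u)) :
    ∃ d, Con d ∧ Ind g Xf J d ∧ PDy d := by
  have r := rp_tb l.isOpen l.met
  have c : ∀ y ≠ 0, ∀ᶠ z in 𝓝 y, ContDiffAt ℝ ∞ J z := fun y hy =>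
    (isOpen_compl_singleton.eventually_mem hy).mono fun z hz =>
      hJ.contDiffAt (isOpen_compl_singleton.mem_nhds hz)
  have s : ∀ y ≠ 0, Sx g D Xf (st J fun _ => Xf (J y)) J y := fun y hy => by
    have m := (h y hy).1
    have e := st_fd (V := fun _ => Xf (J y)) (c y hy).self_of_nhds contDiffAt_const
    have e1 : fderiv ℝ (st J fun _ => Xf (J y)) (pL y) eT = Xf (J y) := by
      rw [e, xL_eT, map_zero, zero_add]; exact one_smul _ _
    have a : ∀ u v, tb (pb (st J fun _ => Xf (J y)) g) (pL y) u v =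
        g (J y) (fderiv ℝ (st J fun _ => Xf (J y)) (pL y) u)
          (fderiv ℝ (st J fun _ => Xf (J y)) (pL y) v) := fun u v => by
      rw [P354YO.tb_ap (P354YO.bil_pb (met_bil l.met (by rwa [st_pL]))), pb, st_pL]
    refine ⟨st_sm ((c y hy).mono fun _ a => ⟨a, contDiffAt_const⟩),
      .of_forall fun z => (st_pL z).symm, m, ⟨fun u v => ?_, fun v v0 hv => ?_, ?_⟩,
      (l.tl _ m).le, ?_⟩
    · rw [a, a, l.met.symm _ m]
    · rw [a, e, hv, zero_smul, add_zero]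
      exact (h y hy).2 _ fun z => v0 (by rw [← pL_xL hv, z, map_zero])
    · rw [a, e1]; exact l.tl _ m
    · rw [e1]; exact l.tl _ m
  let d : Dat := ⟨fun y => (dat (pb (st J fun _ => Xf (J y)) g)).h y,
    fun y => (dat (pb (st J fun _ => Xf (J y)) g)).K y⟩
  have I : ∀ y ≠ 0, IndAt g Xf J d y := fun y hy => (s y hy).ind r
  have E : ∀ y ≠ 0, ∀ᶠ z in 𝓝 y, Sx g D Xf (st J fun _ => Xf (J y)) J z ∧
      d.h z = (dat (pb (st J fun _ => Xf (J y)) g)).h z ∧
      d.K z = (dat (pb (st J fun _ => Xf (J y)) g)).K z := fun y hy => by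
    filter_upwards [(s y hy).ev l, isOpen_compl_singleton.mem_nhds hy] with z a b using
      ⟨a, a.uniq r (I z b)⟩
  refine ⟨d, fun y hy => ?_, I, fun a b => ⟨fun y hy => ?_, fun y hy => ?_⟩,
    fun y hy => (s y hy).posd r⟩
  · obtain ⟨O, h1, h2, h3⟩ := eventually_nhds_iff.1 (E y hy)
    have S : P354XK.Sl g (tb g) D O J (nv g (st J fun _ => Xf (J y))) d :=
      ⟨r, h2, fun z hz => (h1 z hz).1.cJ.contDiffWithinAt,
        fun z hz => ((h1 z hz).1.cnv r).contDiffWithinAt, fun z hz => (h1 z hz).1.mem,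
        fun z hz => (h1 z hz).2.1 ▸ ((h1 z hz).1.posd r).1, fun z hz => ((h1 z hz).1.nor r).1,
        fun z hz i => (((h1 z hz).1.nor r).2 i i).1,
        fun z hz i k => (h1 z hz).2.1 ▸ (((h1 z hz).1.nor r).2 i k).2.1,
        fun z hz i k => (h1 z hz).2.2 ▸ (((h1 z hz).1.nor r).2 i k).2.2⟩
    exact S.constr h3 (r.vac.1 l.vac _ (h y hy).1)
  · exact (((s y hy).cdat r a b).1.congr_of_eventuallyEq
      ((E y hy).mono fun z e => congrFun₂ e.2.1 a b)).contDiffWithinAt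
  · exact (((s y hy).cdat r a b).2.congr_of_eventuallyEq
      ((E y hy).mono fun z e => congrFun₂ e.2.2 a b)).contDiffWithinAt

end Vale.Agent.P354DA
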