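import Vale.Agent.P354DA.Loc
import Vale.Agent.P354XA.Lid
import Vale.Agent.P354E3.Geo
import Vale.Agent.P354N2.Pbi

/-!
Charts, dilations and the middle part.
-/

set_option maxSynthPendingDepth 3

open scoped ContDiff
open Set Filter Topology Metric

noncomputable section

namespace Vale.Agent.P354DA

open Vale.Agent.P354n (R4)
open Vale.Agent.P354 (Bilin)
open Vale.Agent.P354I (X Dat P3 pd ee rm mix)
open Vale.Agent.P354RC (B2 Rp C1 Gm_smul1 Gm_smul2)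
open Vale.Agent.P354XD (tb rp_tb)
open Vale.Agent.P354XE (Tw pt xs rd pb eT gin Bd Lor ch En)
open Vale.Agent.P354XU (IndAt Jt)
open Vale.Agent.P354XA
open Vale.Agent.P354XM (sh rot sh_fd sh_cd rot_norm hin_sh hin_ap)
open Vale.Agent.P354YI (Oj Os Jb)
open Vale.Agent.P354YO (Sb oj_of_bd bd_of_oj oj_pb tb_ap bil_pb)
open Vale.Agent.P354YR (ci DE DI isCh open_DE open_DI)
open Vale.Agent.P354YJ (j0_ci j0_cd p0_mem)
open Vale.Agent.P354T (wt)
open Vale.Agent.P354YM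

variable {g g' : Tw} {D : Set R4} {Xf S : R4 → R4} {J b V : X → R4} {y : X} {d : Dat}

theorem Sx.posJ (s : Sx g D Xf S J y) (r : Rp g (tb g) D) {u : X} (u0 : u ≠ 0) :
    0 < g (J y) (fderiv ℝ J y u) (fderiv ℝ J y u) :=
  pos_of_ind (met_bil r.met s.mem) (s.posd r).1
    (fun i k => (r.eq _ s.mem _ _).trans ((s.nor r).2 i k).2.1) u0

theorem Sx.tr (s : Sx g D Xf S J y) (l : Lor g D Xf) (e : pb S g =ᶠ[𝓝 (pL y)] g')
    (I : ∀ᶠ z in 𝓝 y, IndAt g Xf J d z) :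
    ∀ᶠ z in 𝓝 y, d.h z = (dat g').h z ∧ d.K z = (dat g').K z := by
  filter_upwards [s.ev l, I, pL.continuous.continuousAt.eventually e.eventually_nhds] with z a b c
  have k : tb (pb S g) =ᶠ[𝓝 (pL z)] tb g' := c.mono fun p hp => by simp only [tb, hp]
  simpa only [dat, C1, k.fderiv_eq, k.eq_of_nhds] using a.uniq (rp_tb l.isOpen l.met) b

/-- The pull back of data by a dilation. -/
def sc (c : ℝ) (d : Dat) : Dat := ⟨fun z => c ^ 2 • d.h (c • z), fun z => c ^ 2 • d.K (c • z)⟩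

theorem ind_sc (r : Rp g (tb g) D) {c : ℝ} (m : J (c • y) ∈ D) (I : IndAt g Xf J d (c • y)) :
    IndAt g Xf (fun z => J (c • z)) (sc c d) y := by
  have e1 : ∀ i (F : X → R4), pd i (fun z => F (c • z)) = c • fun z => pd i F (c • z) :=
    fun i F => funext fun z => congrArg (· (ee i)) (fderiv_comp_smul (f := F) (x := z) c)
  have e2 : ∀ i (F : X → R4), pd i (c • F) y = c • pd i F y := fun i F =>
    congrArg (· y (ee i)) (fderiv_const_smul_field (𝕜 := ℝ) (f := F) c)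
  obtain ⟨G, n, k, n1, n2, n3⟩ := I
  refine ⟨G, n, k, n1, n2, fun i l => ?_⟩
  obtain ⟨a1, a2, a3⟩ := n3 i l
  simp only [e1, e2, Pi.smul_apply, sc, Matrix.smul_apply, ← a2, ← a3, r.eq _ m, (r.conn m).1 k,
    Gm_smul1, Gm_smul2, map_smul, map_add, smul_apply, smul_eq_mul] at a1 ⊢
  exact ⟨by rw [a1, mul_zero], by ring, by ring⟩

theorem sh_bd (N : ℕ) : ∃ C ≥ 0, ∀ (c φ : ℝ) (h : Tw) (w : R4) (μ : ℝ), Sb h (sh c φ w) →
    Bd N h (sh c φ w) μ → Bd N (pb (sh c φ) h) w (C * μ) := by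
  let I := {i : ℝ × ℝ × Tw × R4 × ℝ // Sb i.2.2.1 (sh i.1 i.2.1 i.2.2.2.1) ∧
    Bd N i.2.2.1 (sh i.1 i.2.1 i.2.2.2.1) i.2.2.2.2}
  obtain ⟨C, c0, hC⟩ := bd_of_oj (fun i : I => i.2.1.pull (sh_cd _ _).contDiffAt)
    (oj_pb (fun i => (sh_cd _ _).contDiffAt) ((Oj.const (v := fun i : I => rot i.1.2.1)
      (fun _ => zero_le_one) ⟨2, fun _ => (rot_norm _).trans (mul_one _).ge⟩).congr'
      fun _ _ => (sh_fd _ _ _).fderiv) (fun i => i.2.1) (oj_of_bd (fun i => i.2.1) fun i => i.2.2))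
  exact ⟨C, c0, fun c φ h w μ a b => hC ⟨(c, φ, h, w, μ), a, b⟩⟩

theorem pb_sh (c φ M a : ℝ) : pb (sh c φ) (gin M a) = gin M a := by
  funext p v w
  rw [pb, (sh_fd c φ p).fderiv]
  exact (hin_ap (M, a) _ _ _).symm.trans ((hin_sh _ _ _ _ _ _).trans (hin_ap _ _ _ _))

theorem cone2 {B : R4 → R4 → ℝ} (hB : Bilin B) (s : ∀ a b, B a b = B b a)
    (h : ∀ v ≠ 0, v.1 = 0 → 0 < B v v) {u v : R4} (hu : B u u ≤ 0) (hv : B v v < 0) (u0 : 0 < u.1)
    (v0 : 0 < v.1) : B u v < 0 := by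
  have k : 0 ≤ B (v.1 • u + -u.1 • v) (v.1 • u + -u.1 • v) := by
    rcases eq_or_ne (v.1 • u + -u.1 • v) 0 with e | e
    · rw [e]; simpa using (hB.smul_left 0 0 0).ge
    · exact (h _ e (by simp [mul_comm])).le
  simp only [hB.add_left, hB.add_right, hB.smul_left, hB.smul_right, s v u] at k
  by_contra! a
  nlinarith [mul_nonneg (mul_pos u0 v0).le a, mul_nonneg (mul_pos v0 v0).le (neg_nonneg.2 hu),
    mul_pos (mul_pos u0 u0) (neg_pos.2 hv)]

/-- The chart which straightens a slice in an end. -/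
theorem sx_ch {P : Pm} {T : Tg} (hT : T.Is P d) (hM : |P.a| < P.M) (h1 : rm P.M P.a < P.r1)
    {c : ℝ} (c0 : 0 < c)
    (hc : ∀ p, P.r1 ≤ rd p → ∀ v : R4, v.1 = 0 → ‖v‖ ^ 2 ≤ c * gin P.M P.a p v v)
    (hε : P.ε * c < 1) {A : R4 → R4} (hA : ContDiff ℝ ∞ A) {σ : Bool}
    (hl : ∀ v : R4, 0 < v.1 → 0 < (fderiv ℝ A (b y) v).1)
    (hb : ∀ᶠ z in 𝓝 y, ContDiffAt ℝ ∞ b z ∧ ContDiffAt ℝ ∞ V z)
    (m : A (b y) ∈ En P.M P.a P.r1 P.θ) (hR : rd (A (b y)) ≤ P.R + 2) (hV : 0 < (V y).1)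
    (e : ∀ᶠ z in 𝓝 y, J z = ch P.M P.a σ (A (b z))) (mD : J y ∈ T.D)
    (ok : Ok (tb (pb (st b V) (pb A (pb (ch P.M P.a σ) T.g))) (pL y))) :
    Sx T.g T.D T.Xf (ch P.M P.a σ ∘ A ∘ st b V) J y ∧ pb (ch P.M P.a σ ∘ A ∘ st b V) T.g
      =ᶠ[𝓝 (pL y)] pb (st b V) (pb A (pb (ch P.M P.a σ) T.g)) := by
  have sm := st_sm hb
  have k : ∀ᶠ w in 𝓝 (pL y), ContDiffAt ℝ ∞ (ch P.M P.a σ) (A (st b V w)) :=
    ((hA.continuous.continuousAt.comp sm.self_of_nhds.continuousAt).eventually_mem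
      (open_DI.mem_nhds (show A (st b V (pL y)) ∈ DI P.M P.a by
        rw [st_pL]; exact h1.trans m.1))).mono fun w hw =>
      (isCh hM σ).pull.smooth.contDiffAt (open_DI.mem_nhds hw)
  have f : ∀ᶠ w in 𝓝 (pL y), ∀ u, fderiv ℝ (ch P.M P.a σ ∘ A ∘ st b V) w u = fderiv ℝ
      (ch P.M P.a σ) (A (st b V w)) (fderiv ℝ A (st b V w) (fderiv ℝ (st b V) w u)) := by
    filter_upwards [sm, k] with w a1 a2 u
    have a3 := a1.differentiableAt (by simp)
    have a4 := hA.differentiable (by simp) (st b V w)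
    rw [fderiv_comp w (a2.differentiableAt (by simp)) (a4.comp w a3), fderiv_comp w a4 a3]
    rfl
  have E : pb (ch P.M P.a σ ∘ A ∘ st b V) T.g =ᶠ[𝓝 (pL y)]
      pb (st b V) (pb A (pb (ch P.M P.a σ) T.g)) :=
    f.mono fun w a => by funext u v; simp only [pb, a, Function.comp]
  have e0 := e.self_of_nhds
  have v : fderiv ℝ (st b V) (pL y) eT = V y := by
    rw [st_fd hb.self_of_nhds.1 hb.self_of_nhds.2, xL_eT, map_zero, zero_add]; exact one_smul _ _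
  have bl : Bilin (T.g (ch P.M P.a σ (A (b y)))) := met_bil hT.lor.met (e0 ▸ mD)
  obtain ⟨n1, n2, -⟩ := (hT.ends σ).near _ m hR
  refine ⟨⟨(sm.and k).mono fun w a => a.2.comp w (hA.contDiffAt.comp w a.1),
    e.mono fun z a => by rw [a, Function.comp, Function.comp, st_pL], mD,
    by simpa only [tb, E.eq_of_nhds] using ok, (hT.lor.tl _ mD).le, ?_⟩, E⟩
  have t := ok.tl
  rw [tb_ap (bil_pb (bil_pb (bil_pb (by rwa [st_pL])))), pb, v, st_pL] at t
  rw [f.self_of_nhds, v, st_pL, e0, ← hT.ori σ _ m]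
  refine cone2 (B := pb (ch P.M P.a σ) T.g (A (b y))) (bil_pb bl)
    (fun _ _ => hT.lor.met.symm _ (e0 ▸ mD) _ _)
    (fun u u0 hu => pos_near n2 c0 hε u0 (hc _ m.1.le u hu)) ?_ t n1 (hl _ hV)
  rw [pb, hT.ori σ _ m, ← e0]
  exact (hT.lor.tl _ mD).le

theorem wt_end {F F1 : X → ℝ} {m : ℕ} {c x s B : ℝ} (hy : ‖y‖ = 1) (c0 : 0 < c)
    (hx : |Real.log c| = x) (hs : 0 ≤ s) (e : ∀ᶠ z in 𝓝 y, c ^ 2 • F (c • z) = F1 z)
    (h : Jb m F1 y (B * (1 + x) ^ (-s))) (i : ℕ) (hi : i ≤ m) :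
    wt s i (c • y) * ‖iteratedFDeriv ℝ i F (c • y)‖ ≤ B := by
  have x0 : 0 ≤ x := hx ▸ abs_nonneg _
  have k := h.congr e i hi
  have p := Real.rpow_pos_of_pos (show 0 < 1 + x by linarith) s
  rw [P354N2.it_smul, norm_smul, ← pow_add, Real.norm_of_nonneg (by positivity),
    Real.rpow_neg (by linarith), ← div_eq_mul_inv, le_div_iff₀ p] at k
  rw [wt, norm_smul, hy, mul_one, Real.norm_of_nonneg c0.le, ← sq_abs, hx, mul_assoc, mul_comm]
  refine le_trans (mul_le_mul_of_nonneg_left (Real.rpow_le_rpow (Real.sqrt_nonneg _)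
    (Real.sqrt_le_iff.2 ⟨by linarith, by nlinarith⟩) hs) (by positivity)) k

theorem mix_ev (k : Bool → Dat) {σ : Bool} (hy : y ≠ 0) (h : 1 < lg σ y) : ∀ᶠ z in 𝓝 y,
    (mix (k true) (k false)).h z = (k σ).h z ∧ (mix (k true) (k false)).K z = (k σ).K z := by
  have c : ContinuousAt (lg σ) y :=
    continuousAt_const.mul (continuous_norm.continuousAt.log (norm_ne_zero_iff.2 hy))
  filter_upwards [continuousAt_const.eventually_lt c h] with z hz
  cases σ <;> simp only [lg, P354D.sgn, cond_true, cond_false] at hz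
  · simp [mix, Real.smoothTransition.zero_of_nonpos (show Real.log ‖z‖ ≤ 0 by linarith)]
  · simp [mix, Real.smoothTransition.one_of_one_le (show 1 ≤ Real.log ‖z‖ by linarith)]

variable {j : Jd} {K : Set X} (hK : IsCompact K) (sK : ∀ y ∈ K, y ≠ 0)
include hK sK

/-- The middle part of the slice in the ingoing chart. -/
theorem mid_b (h : j.Is) : ∃ C ≥ 0, ∃ e1 > 0, ∀ y ∈ K, ∀ e ≤ e1, ∀ J : X → R4, ContDiffAt ℝ ∞ J y →
    Jt 13 (J - j.J0) y e → J y ∈ DE j.M j.a true ∧ -C ≤ (ci j.M j.a true (J y)).1 ∧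
      Jb 13 (fun z => ci j.M j.a true (J z) - j.Js true j.p0 z) y (C * e) := by
  have c0 : IsCompact (j.J0 '' K) := hK.image_of_continuousOn fun y hy =>
    (j0_cd h (sK y hy)).continuousAt.continuousWithinAt
  obtain ⟨ρ, ρ0, hρ⟩ := c0.exists_cthickening_subset_open (open_DE true)
    (image_subset_iff.2 fun y hy => (j0_ci h (sK y hy) true).1)
  have sm : ∀ w ∈ cthickening ρ (j.J0 '' K), ContDiffAt ℝ ∞ (ci j.M j.a true) w := fun w hw =>
    (isCh (h.hG.par _ (p0_mem h)).2.1 true).back.smooth.contDiffAt ((open_DE true).mem_nhds (hρ hw))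
  obtain ⟨B, hB⟩ := (c0.cthickening (r := ρ)).exists_bound_of_continuousOn fun w hw =>
    (sm w hw).continuousAt.continuousWithinAt
  let I := {i : X × ℝ × (X → R4) // i.1 ∈ K ∧ i.2.1 ≤ min ρ 1 ∧ ContDiffAt ℝ ∞ i.2.2 i.1 ∧
    Jt 13 (i.2.2 - j.J0) i.1 i.2.1}
  have o2 : Oj 13 (fun i : I => i.1.1) (fun _ => j.J0) 1 :=
    .fix hK (fun y hy => j0_cd h (sK y hy)) fun i => i.2.1
  have o1 : Oj 13 (fun i : I => i.1.1) (fun i z => i.1.2.2 z - j.J0 z) fun i => i.1.2.1 :=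
    .of (fun i => i.2.2.2.1.sub (o2.sm i)) fun i => i.2.2.2.2
  have o3 : Oj 13 (fun i : I => i.1.1) (fun i => i.1.2.2) 1 := ((o1.mono le_rfl fun i =>
    i.2.2.1.trans (min_le_right _ _)).add o2).congr' fun _ _ => (sub_add_cancel _ _).symm
  have m1 : ∀ i : I, i.1.2.2 i.1.1 ∈ closedBall (j.J0 i.1.1) ρ := fun i =>
    mem_closedBall_iff_norm.2 ((Jb.zero i.2.2.2.2).trans (i.2.2.1.trans (min_le_left _ _)))
  have m3 := fun i : I => closedBall_subset_cthickening (mem_image_of_mem j.J0 i.2.1) ρ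
  obtain ⟨C, c1, hC⟩ := (Oj.lip o3.sm o2.sm (fun i => (convex_closedBall _ ρ).segment_subset (m1 i)
    (mem_closedBall_self ρ0.le)) 13 o3.fd o2.fd o1 (G := fun _ => ci j.M j.a true) (ν := 1)
    (Oj.fix (c0.cthickening (r := ρ)) sm fun i => m3 _ i.2)).bd
  refine ⟨max C B, le_max_of_le_left c1, min ρ 1, by positivity, fun y hy e he J a b => ?_⟩
  let i : I := ⟨(y, e, J), hy, he, a, b⟩
  refine ⟨hρ (m3 i (m1 i)), (neg_le_neg (le_max_right _ _)).trans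
    (abs_le.1 ((norm_fst_le _).trans (hB _ (m3 i (m1 i))))).1, ((hC i).congr ?_).mono le_rfl ?_⟩
  · exact (isOpen_compl_singleton.eventually_mem (sK y hy)).mono fun z hz => by
      simp only [(j0_ci h hz true).2.1, i]
  · rw [one_mul]
    exact mul_le_mul_of_nonneg_right (le_max_left _ _) (o1.nn i)

theorem mix_1 {Θ : P3 × X → ℝ} (hΘ : ∀ q : P3 × X, q.2 ≠ 0 → ContDiffAt ℝ ∞ Θ q) (p0 : P3) :
    ∃ C ≥ 0, ∀ y ∈ K, ∀ μ ≤ 1, ∀ p ∈ closedBall p0 μ, ∀ q ∈ closedBall p0 μ, Jb 11 (fun z =>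
      Θ (p0, z) - (Real.smoothTransition (Real.log ‖z‖) * Θ (p, z) +
        (1 - Real.smoothTransition (Real.log ‖z‖)) * Θ (q, z))) y (C * μ) := by
  let I := {i : X × ℝ × P3 × P3 // i.1 ∈ K ∧ i.2.1 ≤ 1 ∧ i.2.2.1 ∈ closedBall p0 i.2.1 ∧
    i.2.2.2 ∈ closedBall p0 i.2.1}
  have o : ∀ p : I → P3, (∀ i, p i ∈ closedBall p0 i.1.2.1) → Oj 11 (fun i : I => i.1.1)
      (fun i z => Θ (p0, z) - Θ (p i, z)) fun i => i.1.2.1 := fun p hp => by
    have s : ∀ (r : P3) (y : X), ContDiffAt ℝ ∞ (fun z => (r, z)) y := fun _ _ =>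
      contDiffAt_const.prodMk contDiffAt_id
    have f : ∀ r : I → P3, Oj 10 (fun i : I => i.1.1) (fun i => fderiv ℝ fun z => (r i, z)) 1 :=
      fun r => (Oj.cst (.inr ℝ P3 X)).congr' fun _ _ => (hasFDerivAt_prodMk_right _ _).fderiv
    simpa only [one_mul] using Oj.lip (fun i => s p0 _) (fun i => s (p i) _)
      (S := fun i : I => closedBall p0 1 ×ˢ {i.1.1}) (fun i => ((convex_closedBall _ _).prod
        (convex_singleton _)).segment_subset ⟨mem_closedBall_self zero_le_one, rfl⟩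
        ⟨closedBall_subset_closedBall i.2.2.1 (hp i), rfl⟩) 11 (f _) (f _)
      ((Oj.const (v := fun i => (p0 - p i, (0 : X))) (fun i => dist_nonneg.trans (hp i))
        ⟨1, fun i => by simpa using mem_closedBall_iff_norm'.1 (hp i)⟩).congr' (by simp))
      (G := fun _ => Θ) (ν := 1) (Oj.fix ((isCompact_closedBall p0 1).prod hK)
        (fun q hq => hΘ q (sK _ hq.2)) fun i => ⟨i.2.1, i.2.2.symm ▸ i.1.1.2.1⟩)
  have χ : Oj 11 (fun i : I => i.1.1) (fun _ z => Real.smoothTransition (Real.log ‖z‖)) 1 :=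
    .fix hK (fun y hy => Real.smoothTransition.contDiff.contDiffAt.comp y
      ((contDiffAt_norm ℝ (sK y hy)).log (norm_ne_zero_iff.2 (sK y hy)))) fun i => i.2.1
  obtain ⟨C, c0, hC⟩ := ((χ.smulr (o _ fun i => i.2.2.2.1)).add
    (((Oj.cst 1).sub χ).smulr (o _ fun i => i.2.2.2.2))).bd
  exact ⟨C, c0, fun y hy μ a p hp q hq => (hC ⟨(y, μ, p, q), hy, a, hp, hq⟩).congr
    (.of_forall fun z => by simp only [smul_eq_mul]; ring)⟩

theorem mix_bd (h : j.Is) : ∃ C ≥ 0, ∀ y ∈ K, ∀ μ ≤ 1, ∀ p ∈ closedBall j.p0 μ,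
    ∀ q ∈ closedBall j.p0 μ, ∀ i k,
      Jb 11 (fun z => (j.kd j.p0).h z i k - (mix (j.kd p) (j.kd q)).h z i k) y (C * μ) ∧
      Jb 11 (fun z => (j.kd j.p0).K z i k - (mix (j.kd p) (j.kd q)).K z i k) y (C * μ) := by
  choose C c0 hC using fun a => mix_1 hK sK (Θ := fun q => P354E3.co j.k j.G a ((q.1, j.T), q.2))
    (fun q hq => (P354E3.co_at h.hG a ((q.1, j.T), q.2) hq).comp q
      (f := fun q : P3 × X => ((q.1, j.T), q.2)) (by fun_prop)) j.p0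
  refine ⟨∑ a, C a, Finset.sum_nonneg fun a _ => c0 a, fun y hy μ a p hp q hq i k => ?_⟩
  have l := fun a => mul_le_mul_of_nonneg_right (Finset.single_le_sum (fun a _ => c0 a)
    (Finset.mem_univ a)) (dist_nonneg.trans hp)
  exact ⟨(hC (true, i, k) y hy μ a p hp q hq).mono le_rfl (l _),
    (hC (false, i, k) y hy μ a p hp q hq).mono le_rfl (l _)⟩

theorem wt_bd (s : ℝ) : ∃ W ≥ 0, ∀ i ≤ 11, ∀ y ∈ K, wt s i y ≤ W := by
  choose W hW using fun i : Fin 12 => hK.exists_bound_of_continuousOn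
    ((P354T.wt_cont s i).mono sK)
  exact ⟨∑ i, |W i|, by positivity, fun i hi y hy => (((le_abs_self _).trans
    (hW ⟨i, by omega⟩ y hy)).trans (le_abs_self _)).trans (Finset.single_le_sum
      (f := fun i => |W i|) (fun _ _ => abs_nonneg _) (Finset.mem_univ _))⟩

end Vale.Agent.P354DA
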